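import Mathlib

/-!
Importance sampling lemma: finitely many bounded random variables of mean one are simultaneously
averaged by few sample points (exponential moments and a greedy selection of the sample).
-/

namespace Vale.Agent.P249

open MeasureTheory

/-- Greedy selection: a sum of products is not larger than the sum of the products of the means. -/
theorem exists_sample {α : Type*} [MeasurableSpace α] (Q : Measure α) [IsProbabilityMeasure Q]
    {J : Type*} (s : Finset J) (g : J → α → ℝ) (hg : ∀ j ∈ s, Integrable (g j) Q)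
    (hg0 : ∀ j ∈ s, ∀ ω, 0 ≤ g j ω) (N : ℕ) :
    ∀ c : J → ℝ, (∀ j ∈ s, 0 ≤ c j) → ∃ ω : Fin N → α,
      ∑ j ∈ s, c j * ∏ i, g j (ω i) ≤ ∑ j ∈ s, c j * (∫ a, g j a ∂Q) ^ N := by
  induction N with
  | zero =>
    intro c _
    exact ⟨Fin.elim0, by simp⟩
  | succ N ih =>
    intro c hc
    have hm : ∀ j ∈ s, 0 ≤ ∫ a, g j a ∂Q := fun j hj => integral_nonneg (hg0 j hj)
    have hint : Integrable (fun a => ∑ j ∈ s, c j * (∫ a, g j a ∂Q) ^ N * g j a) Q :=
      integrable_finsetSum _ fun j hj => (hg j hj).const_mul _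
    obtain ⟨ω₀, hω₀⟩ := exists_le_integral hint
    rw [integral_finsetSum _ fun j hj => (hg j hj).const_mul _] at hω₀
    simp only [integral_const_mul] at hω₀
    obtain ⟨ω, hω⟩ := ih (fun j => c j * g j ω₀) fun j hj => mul_nonneg (hc j hj) (hg0 j hj ω₀)
    refine ⟨Fin.cons ω₀ ω, ?_⟩
    have h1 : ∑ j ∈ s, c j * ∏ i : Fin (N + 1), g j ((Fin.cons ω₀ ω : Fin (N + 1) → α) i)
        = ∑ j ∈ s, c j * g j ω₀ * ∏ i, g j (ω i) := by
      refine Finset.sum_congr rfl fun j _ => ?_
      rw [Fin.prod_univ_succ]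
      simp only [Fin.cons_zero, Fin.cons_succ]
      ring
    rw [h1]
    refine hω.trans ?_
    have h2 : ∑ j ∈ s, c j * g j ω₀ * (∫ a, g j a ∂Q) ^ N
        = ∑ j ∈ s, c j * (∫ a, g j a ∂Q) ^ N * g j ω₀ :=
      Finset.sum_congr rfl fun j _ => by ring
    have h3 : ∑ j ∈ s, c j * (∫ a, g j a ∂Q) ^ (N + 1)
        = ∑ j ∈ s, c j * (∫ a, g j a ∂Q) ^ N * ∫ a, g j a ∂Q :=
      Finset.sum_congr rfl fun j _ => by ring
    rw [h2, h3]
    exact hω₀

theorem exp_le_quadratic {u : ℝ} (hu : |u| ≤ 1) : Real.exp u ≤ 1 + u + u ^ 2 := by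
  have h := Real.abs_exp_sub_one_sub_id_le hu
  have := (abs_le.mp h).2
  linarith

/-- Simultaneous averaging. -/
theorem exists_uniform_sample {α : Type*} [MeasurableSpace α] (Q : Measure α)
    [IsProbabilityMeasure Q] {J : Type*} (s : Finset J) (Z : J → α → ℝ)
    (hZm : ∀ j ∈ s, Measurable (Z j)) {B ε : ℝ} (hB : 1 ≤ B) (hε : 0 < ε) (hε1 : ε ≤ 1)
    (hZ0 : ∀ j ∈ s, ∀ ω, 0 ≤ Z j ω) (hZB : ∀ j ∈ s, ∀ ω, Z j ω ≤ B)
    (hZ1 : ∀ j ∈ s, ∫ a, Z j a ∂Q = 1) (N : ℕ)
    (hN : 2 * (s.card : ℝ) * Real.exp (-(N * ε ^ 2 / (4 * B))) < 1) :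
    ∃ ω : Fin N → α, ∀ j ∈ s, (1 - ε) * N ≤ ∑ i, Z j (ω i) ∧ ∑ i, Z j (ω i) ≤ (1 + ε) * N := by
  classical
  have hB0 : 0 < B := by linarith
  set lam : ℝ := ε / (2 * B) with hlam
  have hlam0 : 0 < lam := by positivity
  have hlamB : lam * B = ε / 2 := by rw [hlam]; field_simp
  have hlamB1 : lam * B ≤ 1 := by rw [hlamB]; linarith
  -- both signs
  have hbound : ∀ σ : ℝ, |σ| = 1 → ∀ j ∈ s, Integrable (fun a => Real.exp (σ * lam * Z j a)) Q ∧
      ∫ a, Real.exp (σ * lam * Z j a) ∂Q ≤ Real.exp (σ * lam + lam ^ 2 * B) := by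
    intro σ hσ j hj
    have hσ2 : σ ^ 2 = 1 := by rw [← sq_abs, hσ]; norm_num
    have habs : ∀ a, |σ * lam * Z j a| ≤ 1 := by
      intro a
      rw [abs_mul, abs_mul, hσ, one_mul, abs_of_pos hlam0, abs_of_nonneg (hZ0 j hj a)]
      exact (mul_le_mul_of_nonneg_left (hZB j hj a) hlam0.le).trans hlamB1
    have hmeas : Measurable fun a => Real.exp (σ * lam * Z j a) :=
      Real.measurable_exp.comp ((hZm j hj).const_mul _)
    have hint : Integrable (fun a => Real.exp (σ * lam * Z j a)) Q := by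
      refine Integrable.of_bound hmeas.aestronglyMeasurable (Real.exp 1) ?_
      refine Filter.Eventually.of_forall fun a => ?_
      rw [Real.norm_eq_abs, abs_of_pos (Real.exp_pos _)]
      exact Real.exp_le_exp.mpr ((le_abs_self _).trans (habs a))
    have hZint : Integrable (Z j) Q := by
      refine Integrable.of_bound (hZm j hj).aestronglyMeasurable B ?_
      refine Filter.Eventually.of_forall fun a => ?_
      rw [Real.norm_eq_abs, abs_of_nonneg (hZ0 j hj a)]
      exact hZB j hj a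
    refine ⟨hint, ?_⟩
    have hpt : ∀ a, Real.exp (σ * lam * Z j a) ≤ 1 + (σ * lam + lam ^ 2 * B) * Z j a := by
      intro a
      refine (exp_le_quadratic (habs a)).trans ?_
      have h1 : Z j a ^ 2 ≤ B * Z j a := by
        rw [sq]; exact mul_le_mul_of_nonneg_right (hZB j hj a) (hZ0 j hj a)
      have h2 : (σ * lam * Z j a) ^ 2 = lam ^ 2 * Z j a ^ 2 := by
        rw [mul_pow, mul_pow, hσ2]; ring
      rw [h2]
      have h3 : lam ^ 2 * Z j a ^ 2 ≤ lam ^ 2 * (B * Z j a) :=
        mul_le_mul_of_nonneg_left h1 (by positivity)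
      nlinarith
    have h4 : ∫ a, Real.exp (σ * lam * Z j a) ∂Q
        ≤ ∫ a, (1 + (σ * lam + lam ^ 2 * B) * Z j a) ∂Q :=
      integral_mono hint ((integrable_const _).add (hZint.const_mul _)) hpt
    have h5 : ∫ a, (1 + (σ * lam + lam ^ 2 * B) * Z j a) ∂Q = 1 + (σ * lam + lam ^ 2 * B) := by
      rw [integral_add (integrable_const _) (hZint.const_mul _), integral_const_mul, hZ1 j hj]
      simp
    rw [h5] at h4
    refine h4.trans ?_
    have := Real.add_one_le_exp (σ * lam + lam ^ 2 * B)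
    linarith
  -- the potential
  set G : Bool × J → α → ℝ := fun bj a =>
    Real.exp ((if bj.1 then 1 else -1) * lam * Z bj.2 a) with hG
  set c : Bool × J → ℝ := fun bj =>
    if bj.1 then Real.exp (-(lam * N * (1 + ε))) else Real.exp (lam * N * (1 - ε)) with hc
  set S : Finset (Bool × J) := Finset.univ ×ˢ s with hS
  have hsgn : ∀ b : Bool, |(if b then (1 : ℝ) else -1)| = 1 := by
    intro b; cases b <;> simp
  obtain ⟨ω, hω⟩ := exists_sample Q S G
    (fun bj hbj => by
      rw [hS, Finset.mem_product] at hbj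
      exact (hbound _ (hsgn bj.1) bj.2 hbj.2).1)
    (fun bj _ ω => (Real.exp_pos _).le) N c
    (fun bj _ => by rw [hc]; dsimp only; split_ifs <;> positivity)
  have htot : ∑ bj ∈ S, c bj * (∫ a, G bj a ∂Q) ^ N < 1 := by
    refine lt_of_le_of_lt ?_ hN
    have hterm : ∀ bj ∈ S, c bj * (∫ a, G bj a ∂Q) ^ N ≤ Real.exp (-(N * ε ^ 2 / (4 * B))) := by
      rintro ⟨b, j⟩ hbj
      rw [hS, Finset.mem_product] at hbj
      have h1 := (hbound _ (hsgn b) j hbj.2).2
      have h0 : 0 ≤ ∫ a, G (b, j) a ∂Q := integral_nonneg fun a => (Real.exp_pos _).le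
      have h2 : (∫ a, G (b, j) a ∂Q) ^ N
          ≤ Real.exp ((if b then 1 else -1) * lam + lam ^ 2 * B) ^ N :=
        pow_le_pow_left₀ h0 h1 N
      rw [← Real.exp_nat_mul] at h2
      have hc0 : 0 ≤ c (b, j) := by rw [hc]; dsimp only; split_ifs <;> positivity
      refine (mul_le_mul_of_nonneg_left h2 hc0).trans ?_
      have hkey : lam ^ 2 * B - lam * ε = -(ε ^ 2 / (4 * B)) := by
        rw [hlam]; field_simp; ring
      cases b
      · simp only [hc, Bool.false_eq_true, if_false]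
        rw [← Real.exp_add]
        apply le_of_eq
        congr 1
        have : lam * N * (1 - ε) + N * (-1 * lam + lam ^ 2 * B)
            = N * (lam ^ 2 * B - lam * ε) := by ring
        rw [this, hkey]; ring
      · simp only [hc, if_true]
        rw [← Real.exp_add]
        apply le_of_eq
        congr 1
        have : -(lam * N * (1 + ε)) + N * (1 * lam + lam ^ 2 * B)
            = N * (lam ^ 2 * B - lam * ε) := by ring
        rw [this, hkey]; ring
    refine (Finset.sum_le_sum hterm).trans ?_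
    rw [Finset.sum_const, hS, Finset.card_product, nsmul_eq_mul]
    simp
  have hlt := lt_of_le_of_lt hω htot
  refine ⟨ω, fun j hj => ?_⟩
  have hpos : ∀ bj ∈ S, 0 ≤ c bj * ∏ i, G bj (ω i) := by
    intro bj _
    refine mul_nonneg ?_ (Finset.prod_nonneg fun i _ => (Real.exp_pos _).le)
    rw [hc]; dsimp only; split_ifs <;> positivity
  have hsingle : ∀ bj ∈ S, c bj * ∏ i, G bj (ω i) < 1 := fun bj hbj =>
    lt_of_le_of_lt (Finset.single_le_sum hpos hbj) hlt
  have hT := hsingle (true, j) (by rw [hS, Finset.mem_product]; exact ⟨Finset.mem_univ _, hj⟩)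
  have hF := hsingle (false, j) (by rw [hS, Finset.mem_product]; exact ⟨Finset.mem_univ _, hj⟩)
  simp only [hc, hG, if_true, Bool.false_eq_true, if_false] at hT hF
  rw [← Real.exp_sum, ← Real.exp_add, Real.exp_lt_one_iff] at hT hF
  rw [← Finset.mul_sum] at hT hF
  constructor
  · have : lam * ((1 - ε) * N - ∑ i, Z j (ω i)) < 0 := by nlinarith
    by_contra hcon
    push Not at hcon
    have h := mul_pos hlam0 (sub_pos.mpr hcon)
    linarith
  · have : lam * (∑ i, Z j (ω i) - (1 + ε) * N) < 0 := by nlinarith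
    by_contra hcon
    push Not at hcon
    have h := mul_pos hlam0 (sub_pos.mpr hcon)
    linarith

end Vale.Agent.P249
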