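import Vale.Agent.P249.Spanner
import Vale.Agent.P249.Sampling

/-!
Near-linear dimension reduction for finite subsets of `L_p`: core construction.
-/

namespace Vale.Agent.P249

open MeasureTheory

/-- Increment of `a` along an unordered pair. -/
def inc {V : Type*} (a : V → ℝ) : Sym2 V → ℝ :=
  Sym2.lift ⟨fun i j => |a i - a j|, fun i j => abs_sub_comm _ _⟩

theorem inc_mk {V : Type*} (a : V → ℝ) (i j : V) : inc a s(i, j) = |a i - a j| := rfl

theorem inc_nonneg {V : Type*} (a : V → ℝ) (e : Sym2 V) : 0 ≤ inc a e := by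
  refine Sym2.ind (fun i j => ?_) e
  rw [inc_mk]; exact abs_nonneg _

theorem abs_sub_le_sum_inc {V : Type*} (a : V → ℝ) {G : SimpleGraph V} {x y : V}
    (p : G.Walk x y) : |a x - a y| ≤ (p.edges.map (inc a)).sum := by
  induction p with
  | nil => simp
  | @cons u v w h p ih =>
    rw [SimpleGraph.Walk.edges_cons, List.map_cons, List.sum_cons, inc_mk]
    exact (abs_sub_le (a u) (a v) (a w)).trans (by linarith)

/-- Pathwise bound. -/
theorem rpow_le_of_path {V : Type*} [DecidableEq V] (a : V → ℝ) {G : SimpleGraph V} {x y : V}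
    (w : G.Walk x y) (hw : w.IsPath) {t : ℕ} (ht : w.length ≤ t) {p : ℝ} (hp : 1 ≤ p) :
    |a x - a y| ^ p ≤ (t : ℝ) ^ (p - 1) * ∑ e ∈ w.edges.toFinset, inc a e ^ p := by
  have h1 := abs_sub_le_sum_inc a w
  have h2 : (w.edges.map (inc a)).sum = ∑ e ∈ w.edges.toFinset, |inc a e| := by
    rw [List.sum_toFinset _ hw.isTrail.edges_nodup]
    congr 1
    refine List.map_congr_left fun e _ => ?_
    rw [abs_of_nonneg (inc_nonneg a e)]
  have h3 : |a x - a y| ^ p ≤ (∑ e ∈ w.edges.toFinset, |inc a e|) ^ p :=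
    Real.rpow_le_rpow (abs_nonneg _) (by rw [← h2]; exact h1) (by linarith)
  refine h3.trans ((Real.rpow_sum_le_const_mul_sum_rpow _ _ hp).trans ?_)
  have h4 : (w.edges.toFinset.card : ℝ) ≤ t := by
    rw [List.toFinset_card_of_nodup hw.isTrail.edges_nodup, SimpleGraph.Walk.length_edges]
    exact_mod_cast ht
  have h5 : ∑ e ∈ w.edges.toFinset, |inc a e| ^ p = ∑ e ∈ w.edges.toFinset, inc a e ^ p :=
    Finset.sum_congr rfl fun e _ => by rw [abs_of_nonneg (inc_nonneg a e)]
  rw [h5]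
  refine mul_le_mul_of_nonneg_right (Real.rpow_le_rpow (by positivity) h4 (by linarith)) ?_
  exact Finset.sum_nonneg fun e _ => Real.rpow_nonneg (inc_nonneg a e) _

/-- `‖x - y‖^p` as an integral. -/
theorem norm_rpow_eq {α : Type*} [MeasurableSpace α] {μ : Measure α} {p : ℝ} (hp : 1 ≤ p)
    (x y : Lp ℝ (ENNReal.ofReal p) μ) :
    Integrable (fun a => |x a - y a| ^ p) μ ∧ ∫ a, |x a - y a| ^ p ∂μ = ‖x - y‖ ^ p := by
  have hp0 : 0 < p := by linarith
  have h1 : ENNReal.ofReal p ≠ 0 := by simpa using hp0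
  have h2 : ENNReal.ofReal p ≠ ⊤ := ENNReal.ofReal_ne_top
  have hm : MemLp (x - y : Lp ℝ (ENNReal.ofReal p) μ) (ENNReal.ofReal p) μ := Lp.memLp _
  have hae : (fun a => ‖(x - y : Lp ℝ (ENNReal.ofReal p) μ) a‖ ^ (ENNReal.ofReal p).toReal)
      =ᵐ[μ] fun a => |x a - y a| ^ p := by
    filter_upwards [Lp.coeFn_sub x y] with a ha
    rw [ha, Pi.sub_apply, Real.norm_eq_abs, ENNReal.toReal_ofReal hp0.le]
  have hint := (hm.integrable_norm_rpow h1 h2).congr hae
  refine ⟨hint, ?_⟩
  have h3 := hm.eLpNorm_eq_integral_rpow_norm h1 h2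
  rw [integral_congr_ae hae, ENNReal.toReal_ofReal hp0.le] at h3
  have h4 : 0 ≤ ∫ a, |x a - y a| ^ p ∂μ := integral_nonneg fun a => by positivity
  rw [Lp.norm_def, h3, ENNReal.toReal_ofReal (by positivity), ← Real.rpow_mul h4,
    inv_mul_cancel₀ hp0.ne', Real.rpow_one]

open Classical in
/-- Core: `n` points of `L_p(μ)` and `N` coordinates. -/
theorem core {α : Type*} [MeasurableSpace α] {μ : Measure α} {p : ℝ} (hp : 1 ≤ p)
    {V : Type*} [Fintype V] (x : V → Lp ℝ (ENNReal.ofReal p) μ) (hx : Function.Injective x)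
    {k : ℕ} (hk : 1 ≤ k) (hV : Fintype.card V ≤ 2 ^ k) (hV2 : 2 ≤ Fintype.card V)
    {ε : ℝ} (hε : 0 < ε) (hε1 : ε ≤ 1) (N : ℕ)
    (hN : 2 * ((Fintype.card V : ℝ) ^ 2) * Real.exp (-(N * ε ^ 2
      / (4 * ((2 * k + 1 : ℕ) ^ (p - 1) * (2 * Fintype.card V))))) < 1) :
    ∃ f : V → Fin N → ℝ, ∀ i j, (1 - ε) * ‖x i - x j‖ ^ p ≤ ∑ m, |f i m - f j m| ^ p ∧
      ∑ m, |f i m - f j m| ^ p ≤ (1 + ε) * ‖x i - x j‖ ^ p := by
  have hp0 : 0 < p := by linarith
  set n := Fintype.card V with hn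
  set t : ℕ := 2 * k + 1 with ht
  -- p-th powers of the distances
  have hI := fun i j => (norm_rpow_eq hp (x i) (x j)).1
  have hE := fun i j => (norm_rpow_eq hp (x i) (x j)).2
  set D : Sym2 V → ℝ := Sym2.lift ⟨fun i j => ∫ a, |x i a - x j a| ^ p ∂μ,
    fun i j => by simp_rw [abs_sub_comm]⟩ with hD
  have hDmk : ∀ i j, D s(i, j) = ‖x i - x j‖ ^ p := fun i j => hE i j
  have hDpos : ∀ i j, i ≠ j → 0 < D s(i, j) := by
    intro i j hij
    rw [hDmk]
    have h1 : ‖x i - x j‖ ≠ 0 := by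
      rw [Ne, Lp.norm_eq_zero_iff (by simpa using hp0), sub_eq_zero]
      exact fun h => hij (hx h)
    have h2 : 0 < ‖x i - x j‖ := lt_of_le_of_ne ENNReal.toReal_nonneg (Ne.symm h1)
    exact Real.rpow_pos_of_pos h2 p
  have hDpos' : ∀ e : Sym2 V, ¬ e.IsDiag → 0 < D e := by
    intro e
    refine Sym2.ind (fun i j => ?_) e
    intro h
    exact hDpos i j (fun hij => h (Sym2.mk_isDiag_iff.mpr hij))
  obtain ⟨G, hGcard, hsp⟩ := exists_spanner hk hV D
  set m : ℕ := G.edgeFinset.card with hm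
  have hm1 : 1 ≤ m := by
    obtain ⟨i, j, hij⟩ := Fintype.exists_pair_of_one_lt_card (by omega : 1 < Fintype.card V)
    obtain ⟨w, hw, -, -⟩ := hsp i j hij
    have hl : w.length ≠ 0 := fun h => hij (SimpleGraph.Walk.eq_of_length_eq_zero h)
    have h1 : w.edges ≠ [] := by
      intro h
      apply hl
      rw [← SimpleGraph.Walk.length_edges, h]; rfl
    obtain ⟨e, he⟩ := List.exists_mem_of_ne_nil _ h1
    rw [hm, Nat.one_le_iff_ne_zero, Ne, Finset.card_eq_zero]
    intro h
    have := w.edges_subset_edgeSet he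
    rw [← SimpleGraph.mem_edgeFinset, h] at this
    exact absurd this (Finset.notMem_empty e)
  have hm0 : (0 : ℝ) < m := by exact_mod_cast hm1
  -- normalized increments
  set g : Sym2 V → α → ℝ := fun e a => inc (fun i => x i a) e ^ p / D e with hg
  have hmeasx : ∀ i, Measurable (fun a => x i a) := fun i =>
    (Lp.stronglyMeasurable (x i)).measurable
  have hgmk : ∀ i j a, g s(i, j) a = |x i a - x j a| ^ p / D s(i, j) := fun i j a => rfl
  have hgmeas : ∀ e, Measurable (g e) := by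
    intro e
    refine Sym2.ind (fun i j => ?_) e
    have : g s(i, j) = fun a => |x i a - x j a| ^ p / D s(i, j) := funext fun a => hgmk i j a
    rw [this]
    exact ((((hmeasx i).sub (hmeasx j)).abs).pow_const p).div_const _
  have hDnn : ∀ e : Sym2 V, 0 ≤ D e := by
    intro e
    refine Sym2.ind (fun i j => ?_) e
    rw [hDmk]
    exact Real.rpow_nonneg ENNReal.toReal_nonneg p
  have hg0 : ∀ e a, 0 ≤ g e a := fun e a =>
    div_nonneg (Real.rpow_nonneg (inc_nonneg _ _) _) (hDnn e)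
  have hgint : ∀ e : Sym2 V, ¬ e.IsDiag → Integrable (g e) μ ∧ ∫ a, g e a ∂μ = 1 := by
    intro e
    refine Sym2.ind (fun i j => ?_) e
    intro h
    have : g s(i, j) = fun a => |x i a - x j a| ^ p / D s(i, j) := funext fun a => hgmk i j a
    rw [this]
    refine ⟨(hI i j).div_const _, ?_⟩
    rw [integral_div, hE, hDmk]
    exact div_self (by rw [← hDmk]; exact (hDpos' _ h).ne')
  have hnd : ∀ e ∈ G.edgeFinset, ¬ e.IsDiag := fun e he =>
    SimpleGraph.not_isDiag_of_mem_edgeSet _ (SimpleGraph.mem_edgeFinset.mp he)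
  -- the sampling density
  set h : α → ℝ := fun a => ∑ e ∈ G.edgeFinset, g e a with hh
  have hh0 : ∀ a, 0 ≤ h a := fun a => Finset.sum_nonneg fun e _ => hg0 e a
  have hhmeas : Measurable h := Finset.measurable_fun_sum _ fun e _ => hgmeas e
  have hhint : Integrable h μ := integrable_finsetSum _ fun e he => (hgint e (hnd e he)).1
  have hhI : ∫ a, h a ∂μ = m := by
    rw [hh, integral_finsetSum _ fun e he => (hgint e (hnd e he)).1,
      Finset.sum_congr rfl fun e he => (hgint e (hnd e he)).2]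
    simp [hm]
  -- domination
  have hdom : ∀ i j, i ≠ j → ∀ a, g s(i, j) a ≤ (t : ℝ) ^ (p - 1) * h a := by
    intro i j hij a
    obtain ⟨w, hw, hwl, hwD⟩ := hsp i j hij
    have h1 := rpow_le_of_path (fun i => x i a) w hw hwl hp
    have hsub : w.edges.toFinset ⊆ G.edgeFinset := by
      intro e he
      rw [List.mem_toFinset] at he
      rw [SimpleGraph.mem_edgeFinset]
      exact w.edges_subset_edgeSet he
    have h2 : (∑ e ∈ w.edges.toFinset, inc (fun i => x i a) e ^ p) / D s(i, j)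
        ≤ ∑ e ∈ w.edges.toFinset, g e a := by
      rw [Finset.sum_div]
      refine Finset.sum_le_sum fun e he => ?_
      rw [hg]
      have he' : e ∈ w.edges := List.mem_toFinset.mp he
      exact div_le_div_of_nonneg_left (Real.rpow_nonneg (inc_nonneg _ _) _)
        (hDpos' e (hnd e (hsub he))) (hwD e he')
    have h3 : ∑ e ∈ w.edges.toFinset, g e a ≤ h a :=
      Finset.sum_le_sum_of_subset_of_nonneg hsub fun e _ _ => hg0 e a
    rw [hgmk]
    calc |x i a - x j a| ^ p / D s(i, j)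
        ≤ ((t : ℝ) ^ (p - 1) * ∑ e ∈ w.edges.toFinset, inc (fun i => x i a) e ^ p) / D s(i, j) :=
          div_le_div_of_nonneg_right h1 (hDnn _)
      _ = (t : ℝ) ^ (p - 1) * ((∑ e ∈ w.edges.toFinset, inc (fun i => x i a) e ^ p)
            / D s(i, j)) := by ring
      _ ≤ (t : ℝ) ^ (p - 1) * h a :=
          mul_le_mul_of_nonneg_left (h2.trans h3) (by positivity)
  -- the probability measure
  set ρ : α → NNReal := fun a => (h a / m).toNNReal with hρ
  have hρmeas : Measurable ρ := (hhmeas.div_const _).real_toNNReal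
  set Q : Measure α := μ.withDensity fun a => (ρ a : ENNReal) with hQ
  have hρcoe : ∀ a, (ρ a : ℝ) = h a / m := fun a =>
    Real.coe_toNNReal _ (div_nonneg (hh0 a) hm0.le)
  have hQprob : IsProbabilityMeasure Q := by
    constructor
    rw [hQ, withDensity_apply _ MeasurableSet.univ, Measure.restrict_univ]
    have h1 : ∫⁻ a, (ρ a : ENNReal) ∂μ = ENNReal.ofReal (∫ a, h a / m ∂μ) := by
      rw [ofReal_integral_eq_lintegral_ofReal (hhint.div_const _)
        (Filter.Eventually.of_forall fun a => div_nonneg (hh0 a) hm0.le)]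
      rfl
    rw [h1, integral_div, hhI, div_self hm0.ne', ENNReal.ofReal_one]
  set B : ℝ := (2 * k + 1 : ℕ) ^ (p - 1) * (2 * n) with hB
  set Z : V × V → α → ℝ := fun ij a => m * g s(ij.1, ij.2) a / h a with hZ
  set s : Finset (V × V) := Finset.univ.filter fun ij => ij.1 ≠ ij.2 with hs
  have hmle : (m : ℝ) ≤ 2 * n := by exact_mod_cast hGcard
  have ht1 : (1 : ℝ) ≤ (t : ℝ) ^ (p - 1) :=
    Real.one_le_rpow (by exact_mod_cast (by omega : 1 ≤ t)) (by linarith)
  have hB1 : 1 ≤ B := by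
    have h1 : (1 : ℝ) ≤ 2 * n := by
      have : (2 : ℝ) ≤ n := by exact_mod_cast hV2
      linarith
    calc (1 : ℝ) = 1 * 1 := by ring
      _ ≤ B := mul_le_mul ht1 h1 (by norm_num) (by positivity)
  have hZ0 : ∀ ij ∈ s, ∀ a, 0 ≤ Z ij a := fun ij _ a =>
    div_nonneg (mul_nonneg hm0.le (hg0 _ a)) (hh0 a)
  have hZB : ∀ ij ∈ s, ∀ a, Z ij a ≤ B := by
    intro ij hij a
    rw [hs, Finset.mem_filter] at hij
    have h1 := hdom ij.1 ij.2 hij.2 a
    rcases (hh0 a).eq_or_lt with h0 | h0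
    · have : Z ij a = 0 := by rw [hZ]; dsimp only; rw [← h0, div_zero]
      rw [this]; linarith
    · rw [hZ]; dsimp only
      rw [div_le_iff₀ h0]
      calc (m : ℝ) * g s(ij.1, ij.2) a ≤ m * ((t : ℝ) ^ (p - 1) * h a) :=
            mul_le_mul_of_nonneg_left h1 hm0.le
        _ = (t : ℝ) ^ (p - 1) * m * h a := by ring
        _ ≤ (t : ℝ) ^ (p - 1) * (2 * n) * h a := by
            refine mul_le_mul_of_nonneg_right ?_ h0.le
            exact mul_le_mul_of_nonneg_left hmle (by positivity)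
  have hZm : ∀ ij ∈ s, Measurable (Z ij) := fun ij _ =>
    ((hgmeas _).const_mul _).div hhmeas
  have hZ1 : ∀ ij ∈ s, ∫ a, Z ij a ∂Q = 1 := by
    intro ij hij
    rw [hs, Finset.mem_filter] at hij
    rw [hQ, integral_withDensity_eq_integral_smul hρmeas]
    have h1 : (fun a => ρ a • Z ij a) = g s(ij.1, ij.2) := by
      funext a
      rw [NNReal.smul_def, hρcoe, smul_eq_mul, hZ]
      dsimp only
      rcases (hh0 a).eq_or_lt with h0 | h0
      · have h2 := hdom ij.1 ij.2 hij.2 a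
        rw [← h0, mul_zero] at h2
        have h3 : g s(ij.1, ij.2) a = 0 := le_antisymm h2 (hg0 _ a)
        rw [← h0, h3]; simp
      · field_simp
    rw [h1]
    exact (hgint _ (fun hd => hij.2 (Sym2.mk_isDiag_iff.mp hd))).2
  have hscard : (s.card : ℝ) ≤ (n : ℝ) ^ 2 := by
    have h1 : s.card ≤ n * n := by
      rw [hs]
      refine (Finset.card_filter_le _ _).trans ?_
      rw [Finset.card_univ, Fintype.card_prod]
    calc (s.card : ℝ) ≤ ((n * n : ℕ) : ℝ) := by exact_mod_cast h1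
      _ = (n : ℝ) ^ 2 := by push_cast; ring
  have hN' : 2 * (s.card : ℝ) * Real.exp (-(N * ε ^ 2 / (4 * B))) < 1 := by
    refine lt_of_le_of_lt ?_ hN
    refine mul_le_mul_of_nonneg_right ?_ (Real.exp_pos _).le
    linarith
  obtain ⟨ω, hω⟩ := exists_uniform_sample Q s Z hZm hB1 hε hε1 hZ0 hZB hZ1 N hN'
  have hNpos : 0 < (N : ℝ) := by
    rcases Nat.eq_zero_or_pos N with h0 | h0
    · exfalso
      rw [h0] at hN
      have h2 : (2 : ℝ) ≤ n := by exact_mod_cast hV2
      norm_num at hN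
      nlinarith
    · exact_mod_cast h0
  -- the map
  refine ⟨fun i l => x i (ω l) * (m / (N * h (ω l))) ^ (1 / p), fun i j => ?_⟩
  have hterm : ∀ l, |x i (ω l) * (m / (N * h (ω l))) ^ (1 / p)
      - x j (ω l) * (m / (N * h (ω l))) ^ (1 / p)| ^ p
      = |x i (ω l) - x j (ω l)| ^ p * (m / (N * h (ω l))) := by
    intro l
    have h0 : 0 ≤ (m : ℝ) / (N * h (ω l)) :=
      div_nonneg hm0.le (mul_nonneg hNpos.le (hh0 _))
    rw [← sub_mul, abs_mul, abs_of_nonneg (Real.rpow_nonneg h0 _),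
      Real.mul_rpow (abs_nonneg _) (Real.rpow_nonneg h0 _), ← Real.rpow_mul h0,
      one_div, inv_mul_cancel₀ hp0.ne', Real.rpow_one]
  simp only [hterm]
  by_cases hij : i = j
  · subst hij
    have hz : ‖x i - x i‖ ^ p = 0 := by
      rw [← hE]; simp [Real.zero_rpow hp0.ne']
    rw [hz]
    simp [Real.zero_rpow hp0.ne']
  · have hmem : (i, j) ∈ s := by rw [hs, Finset.mem_filter]; exact ⟨Finset.mem_univ _, hij⟩
    have hd := hDpos i j hij
    have hsum : ∑ l, |x i (ω l) - x j (ω l)| ^ p * (m / (N * h (ω l)))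
        = D s(i, j) / N * ∑ l, Z (i, j) (ω l) := by
      rw [Finset.mul_sum]
      refine Finset.sum_congr rfl fun l _ => ?_
      rw [hZ]; dsimp only
      rw [hgmk]
      rcases (hh0 (ω l)).eq_or_lt with h0 | h0
      · rw [← h0]; simp
      · field_simp
    have hω' := hω (i, j) hmem
    rw [hsum, ← hDmk]
    have hc : 0 < D s(i, j) / N := div_pos hd hNpos
    constructor
    · calc (1 - ε) * D s(i, j) = D s(i, j) / N * ((1 - ε) * N) := by field_simp
        _ ≤ _ := mul_le_mul_of_nonneg_left hω'.1 hc.le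
    · calc D s(i, j) / N * ∑ l, Z (i, j) (ω l) ≤ D s(i, j) / N * ((1 + ε) * N) :=
            mul_le_mul_of_nonneg_left hω'.2 hc.le
        _ = (1 + ε) * D s(i, j) := by field_simp

end Vale.Agent.P249
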