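import Mathlib

/-!
Definitions for problem P249 (dimension reduction for finite subsets of `L_p`).
-/

namespace Vale.Agent.P249

open MeasureTheory

/-- The distance of `a` and `b` in `ℓ_p^d`. -/
noncomputable def ellDist (p : ℝ) {d : ℕ} (a b : Fin d → ℝ) : ℝ :=
  (∑ k, |a k - b k| ^ p) ^ (1 / p)

/-- Every `n`-point subset of every space `L_p(μ)` (over an arbitrary measure space, real scalars)
admits a map into `ℓ_p^d` with distortion at most `D`. -/
def EmbedsAll.{u} (p D : ℝ) (n d : ℕ) : Prop :=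
  ∀ (α : Type u) [MeasurableSpace α] (μ : Measure α) (X : Finset (Lp ℝ (ENNReal.ofReal p) μ)),
    X.card = n →
      ∃ (f : Lp ℝ (ENNReal.ofReal p) μ → Fin d → ℝ) (s : ℝ), 0 < s ∧
        ∀ x ∈ X, ∀ x' ∈ X,
          s * ‖x - x'‖ ≤ ellDist p (f x) (f x') ∧ ellDist p (f x) (f x') ≤ D * s * ‖x - x'‖

/-- `d_p(n, D)`: the least `d` such that every `n`-point subset of every `L_p` space admits a map
into `ℓ_p^d` with distortion at most `D`. -/
noncomputable def dp.{u} (p D : ℝ) (n : ℕ) : ℕ := sInf {d : ℕ | EmbedsAll.{u} p D n d}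

end Vale.Agent.P249
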