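import Vale.Agent.P249.Defs
import Vale.Agent.P249.Core

/-!
The near-linear bound for `d_p(n, D)`.
-/

namespace Vale.Agent.P249

open MeasureTheory

/-- Embedding in a number of coordinates satisfying the sampling inequality. -/
theorem embedsAll_of_large.{u} {p D : ℝ} (hp : 1 ≤ p) (hD : 1 < D) {n : ℕ} (hn : 2 ≤ n) (N : ℕ)
    (hN : 2 * ((n : ℝ) ^ 2) * Real.exp (-(N * ((D - 1) / (D + 1)) ^ 2
      / (4 * ((2 * Nat.clog 2 n + 1 : ℕ) ^ (p - 1) * (2 * n))))) < 1) :
    EmbedsAll.{u} p D n N := by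
  classical
  intro α _ μ X hX
  have hp0 : 0 < p := by linarith
  set ε : ℝ := (D - 1) / (D + 1) with hε
  have hD1 : 0 < D + 1 := by linarith
  have hε0 : 0 < ε := div_pos (by linarith) hD1
  have hε1 : ε < 1 := by rw [hε, div_lt_one hD1]; linarith
  have hcard : Fintype.card X = n := by simpa using hX
  have hk : 1 ≤ Nat.clog 2 n := by
    have := Nat.clog_pos (by norm_num : 1 < 2) hn
    omega
  have hV : Fintype.card X ≤ 2 ^ Nat.clog 2 n := by
    rw [hcard]; exact Nat.le_pow_clog (by norm_num) n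
  obtain ⟨f, hf⟩ := core hp (fun x : X => (x : Lp ℝ (ENNReal.ofReal p) μ))
    Subtype.val_injective hk hV (by omega) hε0 hε1.le N (by rw [hcard]; exact hN)
  refine ⟨fun x => if hx : x ∈ X then f ⟨x, hx⟩ else 0, (1 - ε) ^ (1 / p),
    Real.rpow_pos_of_pos (by linarith) _, fun x hx x' hx' => ?_⟩
  simp only [hx, hx', dif_pos]
  obtain ⟨h1, h2⟩ := hf ⟨x, hx⟩ ⟨x', hx'⟩
  have hnn : 0 ≤ ‖x - x'‖ := ENNReal.toReal_nonneg
  have hpow : ∀ c : ℝ, 0 ≤ c → (c * ‖x - x'‖ ^ p) ^ (1 / p) = c ^ (1 / p) * ‖x - x'‖ := by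
    intro c hc
    rw [Real.mul_rpow hc (Real.rpow_nonneg hnn _), ← Real.rpow_mul hnn, mul_one_div,
      div_self hp0.ne', Real.rpow_one]
  constructor
  · rw [← hpow _ (by linarith)]
    exact Real.rpow_le_rpow (mul_nonneg (by linarith) (Real.rpow_nonneg hnn _)) h1 (by positivity)
  · have h3 : ellDist p (f ⟨x, hx⟩) (f ⟨x', hx'⟩) ≤ (1 + ε) ^ (1 / p) * ‖x - x'‖ := by
      rw [← hpow _ (by linarith)]
      refine Real.rpow_le_rpow (Finset.sum_nonneg fun _ _ => by positivity) h2 (by positivity)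
    refine h3.trans (mul_le_mul_of_nonneg_right ?_ hnn)
    have h4 : 1 + ε = D * (1 - ε) := by rw [hε]; field_simp; ring
    rw [h4, Real.mul_rpow (by linarith) (by linarith)]
    refine mul_le_mul_of_nonneg_right ?_ (Real.rpow_nonneg (by linarith) _)
    calc D ^ (1 / p) ≤ D ^ (1 : ℝ) :=
          Real.rpow_le_rpow_of_exponent_le hD.le (by rw [div_le_one hp0]; exact hp)
      _ = D := Real.rpow_one D

theorem clog_le {n : ℕ} (hn : 2 ≤ n) :
    ((2 * Nat.clog 2 n + 1 : ℕ) : ℝ) ≤ 5 / Real.log 2 * Real.log n := by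
  have hl2 : 0 < Real.log 2 := Real.log_pos (by norm_num)
  have hn0 : (0 : ℝ) < n := by exact_mod_cast (by omega : 0 < n)
  have hln : Real.log 2 ≤ Real.log n := Real.log_le_log (by norm_num) (by exact_mod_cast hn)
  have hk : 1 ≤ Nat.clog 2 n := by
    have := Nat.clog_pos (by norm_num : 1 < 2) hn
    omega
  have h1 : 2 ^ (Nat.clog 2 n - 1) < n := by
    have := Nat.pow_pred_clog_lt_self (by norm_num : 1 < 2) hn
    simpa using this
  have h2 : ((Nat.clog 2 n - 1 : ℕ) : ℝ) * Real.log 2 ≤ Real.log n := by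
    rw [← Real.log_pow]
    refine Real.log_le_log (by positivity) ?_
    exact_mod_cast h1.le
  rw [Nat.cast_sub hk] at h2
  push_cast at h2 ⊢
  rw [div_mul_eq_mul_div, le_div_iff₀ hl2]
  nlinarith

/-- The near-linear bound, with an explicit number of coordinates. -/
theorem exists_embedsAll.{u} {p D : ℝ} (hp : 1 ≤ p) (hD : 1 < D) :
    ∃ C : ℝ, 0 < C ∧ ∀ n : ℕ, 2 ≤ n → ∃ N : ℕ, EmbedsAll.{u} p D n N ∧
      (N : ℝ) ≤ C * n * Real.log n ^ p := by
  have hp0 : 0 < p := by linarith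
  have hl2 : 0 < Real.log 2 := Real.log_pos (by norm_num)
  set ε : ℝ := (D - 1) / (D + 1) with hε
  have hD1 : 0 < D + 1 := by linarith
  have hε0 : 0 < ε := div_pos (by linarith) hD1
  set A : ℝ := 24 * (5 / Real.log 2) ^ (p - 1) / ε ^ 2 with hA
  have hA0 : 0 < A := by positivity
  refine ⟨A + 1 / Real.log 2 ^ p, by positivity, fun n hn => ?_⟩
  have hn0 : (0 : ℝ) < n := by exact_mod_cast (by omega : 0 < n)
  have hn2 : (2 : ℝ) ≤ n := by exact_mod_cast hn
  have hln : Real.log 2 ≤ Real.log n := Real.log_le_log (by norm_num) hn2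
  have hln0 : 0 < Real.log n := lt_of_lt_of_le hl2 hln
  set B : ℝ := (2 * Nat.clog 2 n + 1 : ℕ) ^ (p - 1) * (2 * n) with hB
  have hB0 : 0 < B := by positivity
  set R : ℝ := 4 * B / ε ^ 2 * Real.log (2 * (n : ℝ) ^ 2) with hR
  have hlog : 0 < Real.log (2 * (n : ℝ) ^ 2) := Real.log_pos (by nlinarith)
  have hR0 : 0 < R := by positivity
  refine ⟨⌊R⌋₊ + 1, embedsAll_of_large hp hD hn _ ?_, ?_⟩
  · rw [← hε, ← hB]
    have hNR : R < ((⌊R⌋₊ + 1 : ℕ) : ℝ) := by
      push_cast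
      exact Nat.lt_floor_add_one R
    have h1 : Real.log (2 * (n : ℝ) ^ 2) < ((⌊R⌋₊ + 1 : ℕ) : ℝ) * ε ^ 2 / (4 * B) := by
      rw [lt_div_iff₀ (by positivity)]
      have h2 : R * ε ^ 2 = Real.log (2 * (n : ℝ) ^ 2) * (4 * B) := by
        rw [hR]; field_simp
      rw [← h2]
      exact mul_lt_mul_of_pos_right hNR (by positivity)
    have h3 : (0 : ℝ) < 2 * (n : ℝ) ^ 2 := by positivity
    have h4 : Real.exp (-(((⌊R⌋₊ + 1 : ℕ) : ℝ) * ε ^ 2 / (4 * B)))
        < Real.exp (-Real.log (2 * (n : ℝ) ^ 2)) := Real.exp_lt_exp.mpr (by linarith)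
    rw [Real.exp_neg (Real.log _), Real.exp_log h3] at h4
    calc 2 * (n : ℝ) ^ 2 * Real.exp (-(((⌊R⌋₊ + 1 : ℕ) : ℝ) * ε ^ 2 / (4 * B)))
        < 2 * (n : ℝ) ^ 2 * (2 * (n : ℝ) ^ 2)⁻¹ := mul_lt_mul_of_pos_left h4 h3
      _ = 1 := mul_inv_cancel₀ h3.ne'
  · have hfl : ((⌊R⌋₊ + 1 : ℕ) : ℝ) ≤ R + 1 := by
      push_cast
      have := Nat.floor_le hR0.le
      linarith
    refine hfl.trans ?_
    have hlog3 : Real.log (2 * (n : ℝ) ^ 2) ≤ 3 * Real.log n := by
      have h1 : (2 : ℝ) * (n : ℝ) ^ 2 ≤ (n : ℝ) ^ 3 := by nlinarith [sq_nonneg (n : ℝ)]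
      calc Real.log (2 * (n : ℝ) ^ 2) ≤ Real.log ((n : ℝ) ^ 3) :=
            Real.log_le_log (by positivity) h1
        _ = 3 * Real.log n := by rw [Real.log_pow]; norm_num
    have hBle : B ≤ (5 / Real.log 2) ^ (p - 1) * Real.log n ^ (p - 1) * (2 * n) := by
      rw [hB, ← Real.mul_rpow (by positivity) hln0.le]
      refine mul_le_mul_of_nonneg_right ?_ (by positivity)
      exact Real.rpow_le_rpow (by positivity) (clog_le hn) (by linarith)
    have hRle : R ≤ A * n * Real.log n ^ p := by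
      have hpp : Real.log n ^ p = Real.log n ^ (p - 1) * Real.log n := by
        rw [← Real.rpow_add_one hln0.ne']; congr 1; ring
      calc R ≤ 4 * ((5 / Real.log 2) ^ (p - 1) * Real.log n ^ (p - 1) * (2 * n)) / ε ^ 2
            * (3 * Real.log n) := by
            rw [hR]
            refine mul_le_mul ?_ hlog3 hlog.le (by positivity)
            refine div_le_div_of_nonneg_right ?_ (by positivity)
            linarith
        _ = A * n * Real.log n ^ p := by rw [hA, hpp]; field_simp; ring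
    have h1 : (1 : ℝ) ≤ 1 / Real.log 2 ^ p * n * Real.log n ^ p := by
      have h2 : Real.log 2 ^ p ≤ Real.log n ^ p := Real.rpow_le_rpow hl2.le hln hp0.le
      have h3 : 0 < Real.log 2 ^ p := Real.rpow_pos_of_pos hl2 p
      rw [div_mul_eq_mul_div, div_mul_eq_mul_div, le_div_iff₀ h3]
      nlinarith
    calc R + 1 ≤ A * n * Real.log n ^ p + 1 / Real.log 2 ^ p * n * Real.log n ^ p := by linarith
      _ = (A + 1 / Real.log 2 ^ p) * n * Real.log n ^ p := by ring

end Vale.Agent.P249
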