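import Mathlib

/-!
Sparse hop spanners: every finite weighted complete graph has a subgraph with at most `2 n` edges
such that every pair is joined by a path of at most `2 k + 1` edges (`n ≤ 2 ^ k`), each of weight at
most the weight of the pair.
-/

namespace Vale.Agent.P249

open Finset

variable {V : Type*}

/-- Every cycle of `G` is longer than `g`. -/
def ShortFree (g : ℕ) (G : SimpleGraph V) : Prop :=
  ∀ ⦃u : V⦄ (c : G.Walk u u), c.IsCycle → g < c.length

theorem ShortFree.mono {g : ℕ} {G H : SimpleGraph V} (hG : ShortFree g G) (h : H ≤ G) :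
    ShortFree g H := by
  intro u c hc
  have := hG (c.mapLe h) ((SimpleGraph.Walk.mapLe_isCycle h).mpr hc)
  simpa using this

theorem length_le_card [DecidableEq V] {K : SimpleGraph V} {S : Finset (Sym2 V)}
    (hS : K.edgeSet ⊆ S) {u v : V} (p : K.Walk u v) (hp : p.IsTrail) : p.length ≤ S.card := by
  rw [← SimpleGraph.Walk.length_edges, ← List.toFinset_card_of_nodup hp.edges_nodup]
  apply Finset.card_le_card
  intro e he
  rw [List.mem_toFinset] at he
  exact_mod_cast hS (p.edges_subset_edgeSet he)

theorem ShortFree.isAcyclic [DecidableEq V] {g : ℕ} {G : SimpleGraph V} (hG : ShortFree g G)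
    {K : SimpleGraph V} (hK : K ≤ G) {S : Finset (Sym2 V)} (hS : K.edgeSet ⊆ S)
    (hg : S.card ≤ g) : K.IsAcyclic := by
  intro u c hc
  have h1 := length_le_card hS c hc.isTrail
  have h2 := (hG.mono hK) c hc
  omega

theorem unique_parent [DecidableEq V] {g : ℕ} {H : SimpleGraph V} (hH : ShortFree g H)
    {v u a a' : V} (hr : H.Reachable v u) (ha : H.Adj u a) (ha' : H.Adj u a')
    (hd : H.dist v a ≤ H.dist v u) (hd' : H.dist v a' ≤ H.dist v u)
    (hg : 2 * (H.dist v u + 1) ≤ g) : a = a' := by
  have key : ∀ b : V, H.Adj u b → H.dist v b ≤ H.dist v u →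
      ∃ p : H.Walk v b, ∃ h : H.Adj b u, (p.concat h).IsPath ∧ p.length ≤ H.dist v u := by
    intro b hb hdb
    have hrb : H.Reachable v b := hr.trans hb.reachable
    obtain ⟨p, hp, hpl⟩ := hrb.exists_path_of_dist
    refine ⟨p, hb.symm, ?_, by omega⟩
    rw [SimpleGraph.Walk.concat_isPath_iff]
    refine ⟨hp, fun hu => ?_⟩
    have h1 : H.dist v u ≤ (p.takeUntil u hu).length := SimpleGraph.dist_le _
    have h2 := p.length_takeUntil_lt hu hb.ne
    omega
  obtain ⟨p, h, hp, hpl⟩ := key a ha hd
  obtain ⟨p', h', hp', hpl'⟩ := key a' ha' hd'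
  set S : Finset (Sym2 V) := (p.concat h).edges.toFinset ∪ (p'.concat h').edges.toFinset with hS
  have hScard : S.card ≤ g := by
    refine (Finset.card_union_le _ _).trans ?_
    have h1 := List.toFinset_card_le (p.concat h).edges
    have h2 := List.toFinset_card_le (p'.concat h').edges
    rw [SimpleGraph.Walk.length_edges, SimpleGraph.Walk.length_concat] at h1 h2
    omega
  have hSG : ∀ e ∈ S, e ∈ H.edgeSet := by
    intro e he
    rw [hS, Finset.mem_union, List.mem_toFinset, List.mem_toFinset] at he
    rcases he with he | he
    · exact SimpleGraph.Walk.edges_subset_edgeSet _ he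
    · exact SimpleGraph.Walk.edges_subset_edgeSet _ he
  set K : SimpleGraph V := SimpleGraph.fromEdgeSet (S : Set (Sym2 V)) with hK
  have hKH : K ≤ H := by
    intro x y hxy
    rw [hK, SimpleGraph.fromEdgeSet_adj] at hxy
    exact hSG _ (by exact_mod_cast hxy.1)
  have hKS : K.edgeSet ⊆ S := by
    rw [hK, SimpleGraph.edgeSet_fromEdgeSet]
    exact Set.diff_subset
  have hac := hH.isAcyclic hKH hKS hScard
  have hmem : ∀ e ∈ S, e ∈ K.edgeSet := by
    intro e he
    rw [hK, SimpleGraph.edgeSet_fromEdgeSet]
    refine ⟨by exact_mod_cast he, ?_⟩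
    exact SimpleGraph.not_isDiag_of_mem_edgeSet _ (hSG e he)
  have h1 : ∀ e ∈ (p.concat h).edges, e ∈ K.edgeSet := fun e he =>
    hmem e (by rw [hS, Finset.mem_union, List.mem_toFinset]; exact Or.inl he)
  have h2 : ∀ e ∈ (p'.concat h').edges, e ∈ K.edgeSet := fun e he =>
    hmem e (by rw [hS, Finset.mem_union, List.mem_toFinset, List.mem_toFinset]; exact Or.inr he)
  have huniq := hac.path_unique ⟨(p.concat h).transfer K h1, hp.transfer h1⟩
    ⟨(p'.concat h').transfer K h2, hp'.transfer h2⟩
  have hsup : (p.concat h).support = (p'.concat h').support := by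
    have := congrArg (fun q : K.Path v u => (q : K.Walk v u).support) huniq
    simpa only [SimpleGraph.Walk.support_transfer] using this
  rw [SimpleGraph.Walk.support_concat, SimpleGraph.Walk.support_concat] at hsup
  have hsup' : p.support = p'.support := by
    simpa using hsup
  have e1 := p.getLast_support
  have e2 := p'.getLast_support
  rw [← e1, ← e2]
  congr 1

/-- The graph `G` restricted to the vertices of `U`. -/
def restr (G : SimpleGraph V) (U : Finset V) : SimpleGraph V where
  Adj a b := G.Adj a b ∧ a ∈ U ∧ b ∈ U
  symm := ⟨fun _ _ h => ⟨h.1.symm, h.2.2, h.2.1⟩⟩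
  loopless := ⟨fun _ h => h.1.ne rfl⟩

theorem restr_le (G : SimpleGraph V) (U : Finset V) : restr G U ≤ G := fun _ _ h => h.1

open Classical in
theorem card_edges_ball [Fintype V] {g : ℕ} {H : SimpleGraph V} (hH : ShortFree g H) (v : V)
    (R : ℕ) (hR : 2 * (R + 1) ≤ g) (F : Finset (Sym2 V))
    (hF : ∀ e ∈ F, ∃ a b, e = s(a, b) ∧ H.Adj a b ∧ (H.Reachable v a ∧ H.dist v a ≤ R) ∧
      (H.Reachable v b ∧ H.dist v b ≤ R)) :
    F.card ≤ (univ.filter fun u => H.Reachable v u ∧ H.dist v u ≤ R).card := by
  set B := univ.filter fun u => H.Reachable v u ∧ H.dist v u ≤ R with hB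
  have hsub : F ⊆ B.biUnion fun u =>
      (univ.filter fun a => H.Adj u a ∧ H.dist v a ≤ H.dist v u).image fun a => s(u, a) := by
    intro e he
    obtain ⟨a, b, rfl, hab, ha, hb⟩ := hF e he
    rw [Finset.mem_biUnion]
    rcases le_total (H.dist v a) (H.dist v b) with h | h
    · refine ⟨b, by simp [hB, hb], ?_⟩
      rw [Finset.mem_image]
      exact ⟨a, by simp [hab.symm, h], Sym2.eq_swap⟩
    · refine ⟨a, by simp [hB, ha], ?_⟩
      rw [Finset.mem_image]
      exact ⟨b, by simp [hab, h], rfl⟩
  refine (Finset.card_le_card hsub).trans ?_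
  have h1 : ∀ u ∈ B, ((univ.filter fun a => H.Adj u a ∧ H.dist v a ≤ H.dist v u).image
      fun a => s(u, a)).card ≤ 1 := by
    intro u hu
    rw [hB, Finset.mem_filter] at hu
    refine Finset.card_image_le.trans ?_
    rw [Finset.card_le_one]
    intro a ha a' ha'
    rw [Finset.mem_filter] at ha ha'
    exact unique_parent hH hu.2.1 ha.2.1 ha'.2.1 ha.2.2 ha'.2.2
      (le_trans (by have := hu.2.2; omega) hR)
  have := Finset.card_biUnion_le_card_mul B _ 1 h1
  simpa using this

open Classical in
theorem card_edges_restr [Fintype V] {k : ℕ} (hk : 1 ≤ k) (hV : Fintype.card V ≤ 2 ^ k)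
    {G : SimpleGraph V} (hG : ShortFree (2 * k + 2) G) (U : Finset V) :
    (restr G U).edgeFinset.card ≤ 2 * U.card := by
  induction hm : U.card using Nat.strong_induction_on generalizing U with
  | _ m ih =>
    rcases U.eq_empty_or_nonempty with hU | ⟨v, hv⟩
    · have : (restr G U).edgeFinset = ∅ := by
        rw [Finset.eq_empty_iff_forall_notMem]
        intro e
        refine Sym2.ind (fun a b => ?_) e
        intro h
        rw [SimpleGraph.mem_edgeFinset, SimpleGraph.mem_edgeSet] at h
        have h2 := h.2.1
        rw [hU] at h2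
        exact absurd h2 (Finset.notMem_empty a)
      rw [this]; simp
    · set H := restr G U with hHdef
      have hH : ShortFree (2 * k + 2) H := hG.mono (restr_le G U)
      set B : ℕ → Finset V := fun r => univ.filter fun u => H.Reachable v u ∧ H.dist v u ≤ r
        with hB
      have hB0 : ∀ r, v ∈ B r := by
        intro r
        simp [hB, SimpleGraph.dist_self]
      -- growth
      have hgrow : ∃ r < k, (B (r + 1)).card ≤ 2 * (B r).card := by
        by_contra hcon
        push Not at hcon
        have h1 : ∀ r, r < k → 2 ^ r ≤ (B r).card := by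
          intro r
          induction r with
          | zero => intro _; exact Finset.card_pos.mpr ⟨v, hB0 0⟩
          | succ r ihr =>
            intro hr
            have h2 := ihr (by omega)
            have h3 := hcon r (by omega)
            rw [pow_succ]; omega
        have h2 := h1 (k - 1) (by omega)
        have h3 := hcon (k - 1) (by omega)
        rw [Nat.sub_add_cancel hk] at h3
        have h4 : (B k).card ≤ Fintype.card V := Finset.card_le_univ _
        have h5 : 2 ^ k = 2 * 2 ^ (k - 1) := by
          rw [← pow_succ', Nat.sub_add_cancel hk]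
        omega
      obtain ⟨r, hr, hgr⟩ := hgrow
      have hBU : B r ⊆ U := by
        intro u hu
        rw [hB, Finset.mem_filter] at hu
        obtain ⟨p⟩ := hu.2.1
        cases p.reverse with
        | nil => exact hv
        | cons h _ => exact h.2.1
      set U' := U \ B r with hU'
      have hcard : U'.card + (B r).card = U.card := Finset.card_sdiff_add_card_eq_card hBU
      have hBpos : 0 < (B r).card := Finset.card_pos.mpr ⟨v, hB0 r⟩
      have ih' := ih U'.card (by omega) U' rfl
      set F := H.edgeFinset \ (restr G U').edgeFinset with hF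
      have hFcard : F.card ≤ (B (r + 1)).card := by
        apply card_edges_ball hH v (r + 1) (by omega)
        intro e
        refine Sym2.ind (fun a b => ?_) e
        intro he
        rw [hF, Finset.mem_sdiff, SimpleGraph.mem_edgeFinset, SimpleGraph.mem_edgeFinset,
          SimpleGraph.mem_edgeSet, SimpleGraph.mem_edgeSet] at he
        have hab : H.Adj a b := he.1
        have hor : a ∈ B r ∨ b ∈ B r := by
          by_contra hcon
          push Not at hcon
          apply he.2
          refine ⟨hab.1, ?_, ?_⟩
          · rw [hU', Finset.mem_sdiff]; exact ⟨hab.2.1, hcon.1⟩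
          · rw [hU', Finset.mem_sdiff]; exact ⟨hab.2.2, hcon.2⟩
        have step : ∀ x y : V, H.Adj x y → x ∈ B r →
            (H.Reachable v x ∧ H.dist v x ≤ r + 1) ∧ (H.Reachable v y ∧ H.dist v y ≤ r + 1) := by
          intro x y hxy hx
          rw [hB, Finset.mem_filter] at hx
          refine ⟨⟨hx.2.1, by omega⟩, hx.2.1.trans hxy.reachable, ?_⟩
          obtain ⟨p, hp⟩ := hx.2.1.exists_walk_length_eq_dist
          have := SimpleGraph.dist_le (p.concat hxy)
          rw [SimpleGraph.Walk.length_concat] at this
          omega
        rcases hor with h | h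
        · exact ⟨a, b, rfl, hab, (step a b hab h).1, (step a b hab h).2⟩
        · exact ⟨a, b, rfl, hab, (step b a hab.symm h).2, (step b a hab.symm h).1⟩
      have hE : H.edgeFinset.card ≤ F.card + (restr G U').edgeFinset.card := by
        have h1 : H.edgeFinset ⊆ F ∪ (restr G U').edgeFinset := by
          intro e he
          rw [Finset.mem_union, hF, Finset.mem_sdiff]
          by_cases h : e ∈ (restr G U').edgeFinset
          · exact Or.inr h
          · exact Or.inl ⟨he, h⟩
        exact (Finset.card_le_card h1).trans (Finset.card_union_le _ _)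
      omega

open Classical in
theorem card_edges_le [Fintype V] {k : ℕ} (hk : 1 ≤ k) (hV : Fintype.card V ≤ 2 ^ k)
    {G : SimpleGraph V} (hG : ShortFree (2 * k + 2) G) :
    G.edgeFinset.card ≤ 2 * Fintype.card V := by
  have h := card_edges_restr hk hV hG univ
  have hGe : restr G univ = G := by
    ext a b
    simp [restr]
  rw [hGe] at h
  simpa using h

/-- Hop-greedy spanner. -/
theorem exists_greedy [DecidableEq V] (D : Sym2 V → ℝ) (t : ℕ) (ht : 1 ≤ t)
    (s : Finset (Sym2 V)) :
    ∃ G : SimpleGraph V, G.edgeSet ⊆ s ∧ ShortFree (t + 1) G ∧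
      ∀ x y : V, x ≠ y → s(x, y) ∈ s → ∃ p : G.Walk x y, p.IsPath ∧ p.length ≤ t ∧
        ∀ e ∈ p.edges, D e ≤ D s(x, y) := by
  induction s using Finset.induction_on_max_value D with
  | empty =>
    refine ⟨⊥, by simp, ?_, by simp⟩
    intro u c hc
    exact absurd rfl hc.ne_bot
  | insert a s ha hmax ih =>
    obtain ⟨G, hGs, hGf, hsp⟩ := ih
    have hGmax : ∀ e ∈ G.edgeSet, D e ≤ D a := fun e he => hmax e (by exact_mod_cast hGs he)
    revert ha hmax hGmax
    refine Sym2.ind (fun u v => ?_) a
    intro ha hmax hGmax
    by_cases huv : u = v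
    · refine ⟨G, hGs.trans (by simp), hGf, ?_⟩
      intro x y hxy hmem
      rw [Finset.mem_insert] at hmem
      rcases hmem with h | h
      · exfalso
        apply hxy
        subst huv
        have : s(x, y).IsDiag := by rw [h]; exact Sym2.mk_isDiag_iff.mpr rfl
        exact Sym2.mk_isDiag_iff.mp this
      · exact hsp x y hxy h
    by_cases hex : ∃ p : G.Walk u v, p.IsPath ∧ p.length ≤ t
    · refine ⟨G, hGs.trans (by simp), hGf, ?_⟩
      intro x y hxy hmem
      rw [Finset.mem_insert] at hmem
      rcases hmem with h | h
      · obtain ⟨p, hp, hpl⟩ := hex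
        rw [Sym2.eq_iff] at h
        rcases h with ⟨rfl, rfl⟩ | ⟨rfl, rfl⟩
        · exact ⟨p, hp, hpl, fun e he => hGmax e (p.edges_subset_edgeSet he)⟩
        · refine ⟨p.reverse, hp.reverse, by simpa using hpl, fun e he => ?_⟩
          rw [Sym2.eq_swap]
          exact hGmax e (p.reverse.edges_subset_edgeSet he)
      · exact hsp x y hxy h
    · -- add the edge
      set G' : SimpleGraph V := G ⊔ SimpleGraph.fromEdgeSet {s(u, v)} with hG'
      have hGG' : G ≤ G' := le_sup_left
      have hadj : G'.Adj u v := by
        rw [hG', SimpleGraph.sup_adj]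
        right
        rw [SimpleGraph.fromEdgeSet_adj]
        exact ⟨rfl, huv⟩
      have hedge : ∀ e ∈ G'.edgeSet, e ∈ G.edgeSet ∨ e = s(u, v) := by
        intro e
        refine Sym2.ind (fun x y => ?_) e
        intro h
        rw [SimpleGraph.mem_edgeSet, hG', SimpleGraph.sup_adj, SimpleGraph.fromEdgeSet_adj] at h
        rcases h with h | h
        · exact Or.inl h
        · exact Or.inr h.1
      refine ⟨G', ?_, ?_, ?_⟩
      · intro e he
        rcases hedge e he with h | h
        · have := hGs h
          push_cast
          exact Set.mem_insert_of_mem _ this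
        · rw [h]; push_cast; exact Set.mem_insert _ _
      · intro w c hc
        by_contra hlen
        push Not at hlen
        by_cases hmem : s(u, v) ∈ c.edges
        · -- the cycle uses the new edge: find a short path in `G`
          set S : Finset (Sym2 V) := c.edges.toFinset with hS
          set K : SimpleGraph V := SimpleGraph.fromEdgeSet (S : Set (Sym2 V)) with hK
          have hmemK : ∀ e ∈ c.edges, e ∈ K.edgeSet := by
            intro e he
            rw [hK, SimpleGraph.edgeSet_fromEdgeSet]
            refine ⟨by rw [hS]; simpa using he, ?_⟩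
            exact SimpleGraph.not_isDiag_of_mem_edgeSet _ (c.edges_subset_edgeSet he)
          have hnb : ¬ K.IsBridge s(u, v) := by
            rw [SimpleGraph.isBridge_iff_forall_cycle_notMem (hmemK _ hmem)]
            push Not
            exact ⟨w, c.transfer K hmemK, hc.transfer hmemK, by
              rw [SimpleGraph.Walk.edges_transfer]; exact hmem⟩
          rw [SimpleGraph.isBridge_iff, not_not] at hnb
          obtain ⟨p, hp⟩ := hnb.exists_isPath
          have hpe : ∀ e ∈ p.edges, e ∈ c.edges ∧ e ≠ s(u, v) := by
            intro e he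
            have h1 := p.edges_subset_edgeSet he
            rw [SimpleGraph.edgeSet_deleteEdges, hK, SimpleGraph.edgeSet_fromEdgeSet] at h1
            refine ⟨by simpa [hS] using h1.1.1, fun h => h1.2 (by simp [h])⟩
          have hpG : ∀ e ∈ p.edges, e ∈ G.edgeSet := by
            intro e he
            have h1 := hpe e he
            rcases hedge e (c.edges_subset_edgeSet h1.1) with h | h
            · exact h
            · exact absurd h h1.2
          have hlenp : p.length + 1 ≤ c.length := by
            have h1 : p.edges.toFinset ⊆ c.edges.toFinset.erase s(u, v) := by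
              intro e he
              rw [List.mem_toFinset] at he
              rw [Finset.mem_erase, List.mem_toFinset]
              exact ⟨(hpe e he).2, (hpe e he).1⟩
            have h2 := Finset.card_le_card h1
            rw [List.toFinset_card_of_nodup hp.isTrail.edges_nodup,
              Finset.card_erase_of_mem (by rwa [List.mem_toFinset]),
              List.toFinset_card_of_nodup hc.isTrail.edges_nodup,
              SimpleGraph.Walk.length_edges, SimpleGraph.Walk.length_edges] at h2
            have h3 : 3 ≤ c.length := hc.three_le_length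
            omega
          apply hex
          refine ⟨p.transfer G hpG, hp.transfer hpG, ?_⟩
          rw [SimpleGraph.Walk.length_transfer]
          omega
        · have hcG : ∀ e ∈ c.edges, e ∈ G.edgeSet := by
            intro e he
            rcases hedge e (c.edges_subset_edgeSet he) with h | h
            · exact h
            · exact absurd (h ▸ he) hmem
          have := hGf (c.transfer G hcG) (hc.transfer hcG)
          rw [SimpleGraph.Walk.length_transfer] at this
          omega
      · intro x y hxy hmem
        rw [Finset.mem_insert] at hmem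
        rcases hmem with h | h
        · have hxyadj : G'.Adj x y := by
            rw [← SimpleGraph.mem_edgeSet, h, SimpleGraph.mem_edgeSet]; exact hadj
          refine ⟨SimpleGraph.Walk.cons hxyadj SimpleGraph.Walk.nil, ?_, ?_, ?_⟩
          · simp [hxyadj.ne]
          · simpa using ht
          · intro e he
            simp only [SimpleGraph.Walk.edges_cons, SimpleGraph.Walk.edges_nil,
              List.mem_singleton] at he
            rw [he]
        · obtain ⟨p, hp, hpl, hpD⟩ := hsp x y hxy h
          refine ⟨p.mapLe hGG', (SimpleGraph.Walk.mapLe_isPath hGG').mpr hp, by simpa using hpl, ?_⟩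
          intro e he
          rw [SimpleGraph.Walk.edges_mapLe_eq_edges] at he
          exact hpD e he

open Classical in
/-- Sparse hop spanners of finite weighted complete graphs. -/
theorem exists_spanner [Fintype V] {k : ℕ} (hk : 1 ≤ k) (hV : Fintype.card V ≤ 2 ^ k)
    (D : Sym2 V → ℝ) :
    ∃ G : SimpleGraph V, G.edgeFinset.card ≤ 2 * Fintype.card V ∧
      ∀ x y : V, x ≠ y → ∃ p : G.Walk x y, p.IsPath ∧ p.length ≤ 2 * k + 1 ∧
        ∀ e ∈ p.edges, D e ≤ D s(x, y) := by
  obtain ⟨G, -, hGf, hsp⟩ := exists_greedy D (2 * k + 1) (by omega) univ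
  refine ⟨G, card_edges_le hk hV hGf, fun x y hxy => hsp x y hxy (Finset.mem_univ _)⟩

end Vale.Agent.P249
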